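import Vale.Agent.P127.U.H404.HMix

/-!
# P127 / U : functionals of the form `excH (D) + H (X | Y)`, mixtures and events (helper404)

* `FG lam N P n l D X Y = excH lam N P n l D + H(X | Y)`;
* `FG_le_mix` : `FG P ≤ ∑_z P(z) FG (P | z) + (2 + N) H(z)`;
* `FG_ge_mix` : `∑_z P(z) FG (P | z) ≤ FG P + 1`;
* `FG_event`  : an increment inequality for `P | g` and one for `P | not g` give one for `P`;
* `FG_event'` : the form of `Incr.event`.
-/

set_option autoImplicit false

namespace Vale.Agent.P127.U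

open Filter Topology Vale.Agent.P127 Vale.Agent.P127.Stk Sys

namespace HMix

open JSB

variable {lam N : ℝ} {Ω : Type} [Fintype Ω] {α β δ γ : Type*}

/-- a functional -/
noncomputable def FG (lam N : ℝ) (P : Law Ω) (n : ℕ) (l : Ω → Ln) (D : Ω → δ) (X : Ω → α)
    (Y : Ω → β) : ℝ :=
  excH lam N P n l D + Stk.hc P X Y

theorem hc_le_mix (P : Law Ω) (X : Ω → α) (Y : Ω → β) (C : Ω → γ) :
    Stk.hc P X Y ≤ ∑ z ∈ img C, P.pr C z * Stk.hc (P.cond C z) X Y + P.H C := by
  rw [← hc_cond_sum]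
  have h1 := Stk.hc_le_add' P X C Y
  have h2 := Stk.hc_le_H P C Y
  have h3 : Stk.hc P X (fun ω => (C ω, Y ω)) ≤ Stk.hc P X (fun ω => (Y ω, C ω)) := by
    refine Stk.hc_mono_right P _ fun ω ω' _ _ e => ?_
    simp only [Prod.mk.injEq] at e ⊢
    exact ⟨e.2, e.1⟩
  linarith

theorem hc_ge_mix (P : Law Ω) (X : Ω → α) (Y : Ω → β) (C : Ω → γ) :
    ∑ z ∈ img C, P.pr C z * Stk.hc (P.cond C z) X Y ≤ Stk.hc P X Y := by
  rw [← hc_cond_sum]
  exact Stk.hc_mono_right P _ fun _ _ _ _ e => congrArg Prod.fst e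

theorem excH_le_mix (hl : 0 ≤ lam ∧ lam ≤ 1) (hN : 0 ≤ N) (P : Law Ω) (n : ℕ) (l : Ω → Ln)
    (D : Ω → δ) (C : Ω → γ) (h : ∀ ω, 0 < P.w ω → LnOk (l ω)) :
    excH lam N P n l D ≤ ∑ z ∈ img C, P.pr C z * excH lam N (P.cond C z) n l D + (1 + N) * P.H C := by
  have h1 := HX.excH_le_add (lam := lam) (N := N) (n := n) (l := l) hl hN D (fun ω => (D ω, C ω)) h
  have h2 := excH_le_cond_sum hl hN P n l D C h
  have h4 : Stk.hc P (fun ω => (D ω, C ω)) D ≤ P.H C := by
    refine (Stk.hc_mono_left P (X' := C) fun ω ω' _ _ e => ?_).trans (Stk.hc_le_H P _ _)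
    simp only [Prod.mk.injEq] at e ⊢
    exact ⟨e.2, e.1⟩
  have h5 := mul_le_mul_of_nonneg_left h4 (show 0 ≤ 1 + N by linarith)
  linarith

/-- **mixtures**, upper bound -/
theorem FG_le_mix (hl : 0 ≤ lam ∧ lam ≤ 1) (hN : 0 ≤ N) (P : Law Ω) (n : ℕ) (l : Ω → Ln)
    (D : Ω → δ) (X : Ω → α) (Y : Ω → β) (C : Ω → γ) (h : ∀ ω, 0 < P.w ω → LnOk (l ω)) :
    FG lam N P n l D X Y ≤
      ∑ z ∈ img C, P.pr C z * FG lam N (P.cond C z) n l D X Y + (2 + N) * P.H C := by
  have h1 := excH_le_mix hl hN P n l D C h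
  have h2 := hc_le_mix P X Y C
  unfold FG
  simp only [mul_add, Finset.sum_add_distrib]
  linarith

/-- **mixtures**, lower bound -/
theorem FG_ge_mix (hl : 0 ≤ lam ∧ lam ≤ 1) (hN : 0 ≤ N) {γ : Type} (P : Law Ω) (n : ℕ) (l : Ω → Ln)
    (D : Ω → δ) (X : Ω → α) (Y : Ω → β) (C : Ω → γ) (h : ∀ ω, 0 < P.w ω → LnOk (l ω)) :
    ∑ z ∈ img C, P.pr C z * FG lam N (P.cond C z) n l D X Y ≤ FG lam N P n l D X Y + 1 := by
  have h1 := excH_ge_mix hl hN P n l D C h
  have h2 := hc_ge_mix P X Y C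
  unfold FG
  simp only [mul_add, Finset.sum_add_distrib]
  linarith

/-- an abstract functional `F` of the law, with mixtures, at two states -/
theorem event_abs (P : Law Ω) (g : Ω → Bool) (F F' : Law Ω → ℝ) {b1 b2 c1 c2 : ℝ}
    (h1 : F' P ≤ P.pr g true * F' (P.cond g true) + P.pr g false * F' (P.cond g false) + c1)
    (h2 : P.pr g true * F (P.cond g true) + P.pr g false * F (P.cond g false) ≤ F P + c2)
    (h3 : 0 < P.pr g true → F' (P.cond g true) ≤ F (P.cond g true) + b1)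
    (h4 : 0 < P.pr g false → F' (P.cond g false) ≤ F (P.cond g false) + b2) :
    F' P ≤ F P + P.pr g true * b1 + (1 - P.pr g true) * b2 + (c1 + c2) := by
  have a3 := Act.pr_bool P g
  have a4 : P.pr g true * F' (P.cond g true) ≤ P.pr g true * (F (P.cond g true) + b1) := by
    rcases (P.pr_nonneg g true).eq_or_lt with h0 | h0
    · rw [← h0, zero_mul, zero_mul]
    · exact mul_le_mul_of_nonneg_left (h3 h0) h0.le
  have a5 : P.pr g false * F' (P.cond g false) ≤ P.pr g false * (F (P.cond g false) + b2) := by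
    rcases (P.pr_nonneg g false).eq_or_lt with h0 | h0
    · rw [← h0, zero_mul, zero_mul]
    · exact mul_le_mul_of_nonneg_left (h4 h0) h0.le
  have e : 1 - P.pr g true = P.pr g false := by linarith
  rw [e]
  linarith

/-- **event** for two functionals of the form `FG` (constants `κ`, `κ'` may be added) -/
theorem FG_event (hl : 0 ≤ lam ∧ lam ≤ 1) (hN : 0 ≤ N) {α' β' δ' : Type*} (P : Law Ω) (g : Ω → Bool)
    (n n' : ℕ) (l l' : Ω → Ln) (D : Ω → δ) (D' : Ω → δ') (X : Ω → α) (X' : Ω → α') (Y : Ω → β)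
    (Y' : Ω → β') (κ κ' : ℝ)
    (h : ∀ ω, 0 < P.w ω → LnOk (l ω)) (h' : ∀ ω, 0 < P.w ω → LnOk (l' ω)) {b1 b2 : ℝ}
    (h3 : 0 < P.pr g true → FG lam N (P.cond g true) n' l' D' X' Y' - κ' ≤
      FG lam N (P.cond g true) n l D X Y - κ + b1)
    (h4 : 0 < P.pr g false → FG lam N (P.cond g false) n' l' D' X' Y' - κ' ≤
      FG lam N (P.cond g false) n l D X Y - κ + b2) :
    FG lam N P n' l' D' X' Y' - κ' ≤ FG lam N P n l D X Y - κ + P.pr g true * b1 +
      (1 - P.pr g true) * b2 + ((2 + N) * Real.log 2 + 1) := by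
  have a1 := FG_le_mix hl hN P n' l' D' X' Y' g h'
  have a2 := FG_ge_mix (lam := lam) hl hN P n l D X Y g h
  rw [Act.sum_bool P g fun z => FG lam N (P.cond g z) n' l' D' X' Y'] at a1
  rw [Act.sum_bool P g fun z => FG lam N (P.cond g z) n l D X Y] at a2
  have a3 := mul_le_mul_of_nonneg_left (H_bool_le P g) (show 0 ≤ 2 + N by linarith)
  have a4 := Act.pr_bool P g
  exact event_abs P g (fun P => FG lam N P n l D X Y - κ) (fun P => FG lam N P n' l' D' X' Y' - κ')
    (c1 := (2 + N) * Real.log 2) (c2 := 1)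
    (by
      have e1 : P.pr g true * κ' + P.pr g false * κ' = κ' := by rw [← add_mul, a4, one_mul]
      simp only [mul_sub]
      linarith)
    (by
      have e1 : P.pr g true * κ + P.pr g false * κ = κ := by rw [← add_mul, a4, one_mul]
      simp only [mul_sub]
      linarith) h3 h4

end HMix

end Vale.Agent.P127.U
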