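import Vale.Agent.P127.U.H736.Nonat
import Vale.Agent.P127.U.JS

/-!
# P127 / U : activity (helper404)

`X` a block, `Z` the past, `gs P X Z c : Ω → Bool` the event `P(X = own value | Z) < e^{-c}`.

* `hc_heavy`  : off the event the entropy of the block is at most `c`;
* `hc_split`  : `H(X | Z) ≤ ∑_b P(b) H_b(X | Z) + log 2`;
* `colp_le`   : the collision probability of the block is at most `P(not g) + e^{-c}`;
* `act_step`  : one step, from the window inequality with an event;
* `act_sum`   : sum over the path: total probability of the inactive blocks;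
* `act_colp`  : sum over the path of the collision probabilities.
-/

set_option autoImplicit false

namespace Vale.Agent.P127.U.Act

open Finset Vale.Agent.P127 Vale.Agent.P127.Stk Vale.Agent.P127.U.Nonat

variable {Ω : Type} [Fintype Ω] {S T : Type*}

open Classical in
/-- the block has small conditional probability -/
noncomputable def gs (P : Law Ω) (X : Ω → S) (Z : Ω → T) (c : ℝ) (ω : Ω) : Bool :=
  decide (cp P X Z ω < Real.exp (-c))

theorem gs_true {P : Law Ω} {X : Ω → S} {Z : Ω → T} {c : ℝ} {ω : Ω} :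
    gs P X Z c ω = true ↔ cp P X Z ω < Real.exp (-c) := by
  simp [gs]

theorem gs_false {P : Law Ω} {X : Ω → S} {Z : Ω → T} {c : ℝ} {ω : Ω} :
    gs P X Z c ω = false ↔ Real.exp (-c) ≤ cp P X Z ω := by
  simp [gs]

theorem cp_le_one (P : Law Ω) (X : Ω → S) (Z : Ω → T) (ω : Ω) : cp P X Z ω ≤ 1 := by
  unfold cp
  refine div_le_one_of_le₀ ?_ (P.pr_nonneg _ _)
  have := P.sum_pr_pair_le X Z (Z ω) {X ω}
  simpa using this

theorem pr_eq_zero {V : Type*} (P : Law Ω) {g : Ω → V} {x : V} (hx : x ∉ img g) : P.pr g x = 0 := by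
  classical
  unfold Law.pr
  refine Finset.sum_eq_zero fun ω hω => ?_
  rw [Finset.mem_filter] at hω
  exact absurd (mem_img.2 ⟨ω, hω.2⟩) hx

theorem sum_bool (P : Law Ω) (g : Ω → Bool) (f : Bool → ℝ) :
    ∑ x ∈ img g, P.pr g x * f x = P.pr g true * f true + P.pr g false * f false := by
  have h2 : ∑ x ∈ img g, P.pr g x * f x = ∑ x : Bool, P.pr g x * f x := by
    refine Finset.sum_subset (Finset.subset_univ _) fun x _ hx => ?_
    rw [pr_eq_zero P hx, zero_mul]
  rw [h2, Fintype.sum_bool]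

/-- the two values of a Boolean variable -/
theorem pr_bool (P : Law Ω) (g : Ω → Bool) : P.pr g true + P.pr g false = 1 := by
  have h := P.sum_pr_image g
  have h2 := sum_bool P g fun _ => 1
  simp only [mul_one] at h2
  linarith

/-- conditional entropy and a Boolean variable -/
theorem hc_bool (P : Law Ω) (g : Ω → Bool) (X : Ω → S) (Z : Ω → T) :
    hc P X (fun ω => (Z ω, g ω)) =
      P.pr g true * hc (P.cond g true) X Z + P.pr g false * hc (P.cond g false) X Z := by
  rw [JSB.hc_cond_sum P X Z g, sum_bool P g fun x => hc (P.cond g x) X Z]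

theorem hc_split (P : Law Ω) (g : Ω → Bool) (X : Ω → S) (Z : Ω → T) :
    hc P X Z ≤ P.pr g true * hc (P.cond g true) X Z +
      P.pr g false * hc (P.cond g false) X Z + Real.log 2 := by
  rw [← hc_bool]
  have h1 := hc_le_add' P X g Z
  have h2 : hc P g Z ≤ Real.log 2 := by
    refine (hc_le_H P g Z).trans ?_
    have := P.H_le_log_card g
    simpa using this
  have h3 : hc P X (fun ω => (g ω, Z ω)) = hc P X (fun ω => (Z ω, g ω)) :=
    hc_congr P (fun _ _ _ _ e => congrArg Prod.fst e) (fun _ _ _ _ e => congrArg Prod.fst e)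
      (fun _ _ _ _ e => by simp only [Prod.mk.injEq] at e ⊢; exact ⟨e.2, e.1⟩)
      (fun _ _ _ _ e => by simp only [Prod.mk.injEq] at e ⊢; exact ⟨e.2, e.1⟩)
  linarith

theorem cond_pos {P : Law Ω} {g : Ω → Bool} {b : Bool} (hb : 0 < P.pr g b) {ω : Ω}
    (h : 0 < (P.cond g b).w ω) : 0 < P.w ω ∧ g ω = b := by
  classical
  rw [P.cond_w g b hb] at h
  split_ifs at h with h1
  · refine ⟨?_, h1⟩
    by_contra hcon
    have h0 : P.w ω = 0 := le_antisymm (not_lt.1 hcon) (P.nn ω)
    rw [h0, zero_div] at h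
    exact lt_irrefl _ h
  · exact absurd h (lt_irrefl _)

/-- off the event the entropy of the block is at most `c` -/
theorem hc_heavy (P : Law Ω) (X : Ω → S) (Z : Ω → T) (c : ℝ) :
    P.pr (gs P X Z c) false * hc (P.cond (gs P X Z c) false) X Z ≤ P.pr (gs P X Z c) false * c := by
  classical
  rcases (P.pr_nonneg (gs P X Z c) false).eq_or_lt with h0 | h0
  · rw [← h0, zero_mul, zero_mul]
  refine mul_le_mul_of_nonneg_left ?_ h0.le
  set Q := P.cond (gs P X Z c) false with hQ
  have hg := Q.gibbs_cond X Z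
    (fun x z => if 0 < P.pr Z z ∧ Real.exp (-c) * P.pr Z z ≤ P.pr (fun ω => (X ω, Z ω)) (x, z)
      then Real.exp (-c) else 0)
    (fun x z => by split_ifs <;> positivity) ?_ ?_
  · refine (show hc Q X Z ≤ _ from hg).trans (le_of_eq ?_)
    rw [Q.ex_congr (g := fun _ => c), Q.ex_const]
    intro ω hω
    obtain ⟨h1, h2⟩ := cond_pos h0 hω
    rw [gs_false] at h2
    unfold cp at h2
    rw [le_div_iff₀ (P.pr_pos Z h1)] at h2
    rw [if_pos ⟨P.pr_pos Z h1, h2⟩, Real.log_exp, neg_neg]
  · intro z F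
    by_cases hz : 0 < P.pr Z z
    · have h3 := P.sum_pr_pair_le X Z z F
      have h4 : ∑ x ∈ F, (if 0 < P.pr Z z ∧
          Real.exp (-c) * P.pr Z z ≤ P.pr (fun ω => (X ω, Z ω)) (x, z) then Real.exp (-c) else 0) *
          P.pr Z z ≤ ∑ x ∈ F, P.pr (fun ω => (X ω, Z ω)) (x, z) := by
        refine Finset.sum_le_sum fun x _ => ?_
        split_ifs with h
        · exact h.2
        · rw [zero_mul]
          exact P.pr_nonneg _ _
      rw [← Finset.sum_mul] at h4
      have h5 := h4.trans h3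
      rw [← one_mul (P.pr Z z)] at h5
      exact le_of_mul_le_mul_right (by simpa using h5) hz
    · have : ∑ x ∈ F, (if 0 < P.pr Z z ∧
          Real.exp (-c) * P.pr Z z ≤ P.pr (fun ω => (X ω, Z ω)) (x, z) then Real.exp (-c) else 0) = 0 :=
        Finset.sum_eq_zero fun x _ => if_neg fun h => hz h.1
      rw [this]
      exact zero_le_one
  · intro ω hω
    obtain ⟨h1, h2⟩ := cond_pos h0 hω
    rw [gs_false] at h2
    unfold cp at h2
    rw [le_div_iff₀ (P.pr_pos Z h1)] at h2
    rw [if_pos ⟨P.pr_pos Z h1, h2⟩]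
    exact Real.exp_pos _

/-- collision probability and the event -/
theorem colp_le (P : Law Ω) (X : Ω → S) (Z : Ω → T) (c : ℝ) :
    P.ex (cp P X Z) ≤ P.pr (gs P X Z c) false + Real.exp (-c) := by
  classical
  have h1 : P.ex (cp P X Z) ≤
      P.ex (fun ω => (if gs P X Z c ω = false then (1 : ℝ) else 0) + Real.exp (-c)) := by
    refine P.ex_mono fun ω _ => ?_
    by_cases h : gs P X Z c ω = false
    · rw [if_pos h]
      have := cp_le_one P X Z ω
      have := Real.exp_pos (-c)
      linarith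
    · rw [if_neg h, zero_add]
      have h' : gs P X Z c ω = true := by simpa using h
      exact (gs_true.1 h').le
  refine h1.trans (le_of_eq ?_)
  rw [P.ex_add, P.ex_const]
  congr 1
  unfold Law.ex Law.pr
  rw [Finset.sum_filter]
  refine Finset.sum_congr rfl fun ω _ => ?_
  by_cases h : gs P X Z c ω = false
  · rw [if_pos h]
    simp only [if_pos h, mul_one]
  · rw [if_neg h]
    simp only [if_neg h, mul_zero]

/-- **one step** : the window inequality with the event `gs` gives a gain on the inactive part -/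
theorem act_step (P : Law Ω) (X : Ω → S) (Z : Ω → T) {c N B1 B2 S' err D : ℝ}
    (hN : 0 ≤ N)
    (h : D ≤ P.pr (gs P X Z c) true * B1 + P.pr (gs P X Z c) false * B2 +
      N * (P.pr (gs P X Z c) true * S' -
        P.pr (gs P X Z c) true * hc (P.cond (gs P X Z c) true) X Z) + err) :
    D + P.pr (gs P X Z c) false * (B1 + N * S' - N * c - B2) ≤
      B1 + N * (S' - hc P X Z) + N * Real.log 2 + err := by
  have h1 := hc_split P (gs P X Z c) X Z
  have h2 := hc_heavy P X Z c
  have h3 := pr_bool P (gs P X Z c)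
  set q := P.pr (gs P X Z c) true
  set q' := P.pr (gs P X Z c) false
  set u := q * hc (P.cond (gs P X Z c) true) X Z
  set u' := q' * hc (P.cond (gs P X Z c) false) X Z
  have h4 : N * hc P X Z ≤ N * (u + q' * c + Real.log 2) :=
    mul_le_mul_of_nonneg_left (by linarith) hN
  have h5 : q = 1 - q' := by linarith
  rw [h5] at h
  nlinarith [h, h4]

/-- **sum over the path** -/
theorem act_sum (P : Law Ω) (n : ℕ) (A : Finset ℕ) (hA : A ⊆ Finset.range n)
    (X : ℕ → Ω → S) (Z : ℕ → Ω → T) (E err B0 B1 B2 S' c : ℕ → ℝ) {N κ Δ : ℝ}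
    (hN : 0 ≤ N)
    (hW : ∀ i ∈ A, E (i + 1) - E i ≤ P.pr (gs P (X i) (Z i) (c i)) true * B1 i +
      P.pr (gs P (X i) (Z i) (c i)) false * B2 i +
      N * (P.pr (gs P (X i) (Z i) (c i)) true * S' i -
        P.pr (gs P (X i) (Z i) (c i)) true *
          hc (P.cond (gs P (X i) (Z i) (c i)) true) (X i) (Z i)) + err i)
    (hR : ∀ i, i < n → i ∉ A → E (i + 1) - E i ≤ err i)
    (hT : ∑ i ∈ A, (B0 i + N * (S' i - hc P (X i) (Z i))) - Δ ≤ E n - E 0)
    (hκ : ∀ i ∈ A, κ ≤ B1 i + N * S' i - N * c i - B2 i) :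
    κ * ∑ i ∈ A, P.pr (gs P (X i) (Z i) (c i)) false ≤
      Δ + ∑ i ∈ A, (B1 i - B0 i + N * Real.log 2) + ∑ i ∈ Finset.range n, err i := by
  have h1 : E n - E 0 = ∑ i ∈ Finset.range n, (E (i + 1) - E i) :=
    (Finset.sum_range_sub E n).symm
  have h2 : ∑ i ∈ Finset.range n, (E (i + 1) - E i) ≤
      ∑ i ∈ Finset.range n, (err i + if i ∈ A then
        (B1 i + N * (S' i - hc P (X i) (Z i)) + N * Real.log 2 -
          κ * P.pr (gs P (X i) (Z i) (c i)) false) else 0) := by
    refine Finset.sum_le_sum fun i hi => ?_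
    by_cases h : i ∈ A
    · rw [if_pos h]
      have h3 := act_step P (X i) (Z i) hN (hW i h)
      have h4 := mul_le_mul_of_nonneg_left (hκ i h) (P.pr_nonneg (gs P (X i) (Z i) (c i)) false)
      linarith
    · rw [if_neg h, add_zero]
      exact hR i (Finset.mem_range.1 hi) h
  rw [Finset.sum_add_distrib, ← Finset.sum_filter] at h2
  have h3 : (Finset.range n).filter (fun i => i ∈ A) = A := by
    ext i
    simp only [Finset.mem_filter]
    exact ⟨fun h => h.2, fun h => ⟨hA h, h⟩⟩
  rw [h3] at h2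
  have h4 : ∑ i ∈ A, (B1 i + N * (S' i - hc P (X i) (Z i)) + N * Real.log 2 -
      κ * P.pr (gs P (X i) (Z i) (c i)) false) =
      ∑ i ∈ A, (B0 i + N * (S' i - hc P (X i) (Z i))) + ∑ i ∈ A, (B1 i - B0 i + N * Real.log 2) -
      κ * ∑ i ∈ A, P.pr (gs P (X i) (Z i) (c i)) false := by
    rw [Finset.mul_sum, ← Finset.sum_add_distrib, ← Finset.sum_sub_distrib]
    refine Finset.sum_congr rfl fun i _ => ?_
    ring
  rw [h4] at h2
  linarith

/-- **sum over the path of the collision probabilities** -/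
theorem act_colp (P : Law Ω) (n : ℕ) (A : Finset ℕ) (hA : A ⊆ Finset.range n)
    (X : ℕ → Ω → S) (Z : ℕ → Ω → T) (E err B0 B1 B2 S' c : ℕ → ℝ) {N κ Δ : ℝ}
    (hN : 0 ≤ N)
    (hW : ∀ i ∈ A, E (i + 1) - E i ≤ P.pr (gs P (X i) (Z i) (c i)) true * B1 i +
      P.pr (gs P (X i) (Z i) (c i)) false * B2 i +
      N * (P.pr (gs P (X i) (Z i) (c i)) true * S' i -
        P.pr (gs P (X i) (Z i) (c i)) true *
          hc (P.cond (gs P (X i) (Z i) (c i)) true) (X i) (Z i)) + err i)
    (hR : ∀ i, i < n → i ∉ A → E (i + 1) - E i ≤ err i)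
    (hT : ∑ i ∈ A, (B0 i + N * (S' i - hc P (X i) (Z i))) - Δ ≤ E n - E 0)
    (hκ0 : 0 < κ) (hκ : ∀ i ∈ A, κ ≤ B1 i + N * S' i - N * c i - B2 i) :
    ∑ i ∈ A, P.ex (cp P (X i) (Z i)) ≤
      (Δ + ∑ i ∈ A, (B1 i - B0 i + N * Real.log 2) + ∑ i ∈ Finset.range n, err i) / κ +
        ∑ i ∈ A, Real.exp (-c i) := by
  have h1 := act_sum P n A hA X Z E err B0 B1 B2 S' c hN hW hR hT hκ
  have h2 : ∑ i ∈ A, P.ex (cp P (X i) (Z i)) ≤
      ∑ i ∈ A, (P.pr (gs P (X i) (Z i) (c i)) false + Real.exp (-c i)) :=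
    Finset.sum_le_sum fun i _ => colp_le P (X i) (Z i) (c i)
  rw [Finset.sum_add_distrib] at h2
  refine h2.trans (add_le_add ?_ le_rfl)
  rw [le_div_iff₀ hκ0, mul_comm]
  exact h1

end Vale.Agent.P127.U.Act
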