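import Vale.Agent.P127.U.H404.HMix

/-!
# P127 / U : activity of the first block of a window (helper404)

* `WinH lam N Np b c s` : window inequality for `XFH` at the origin, scale `s`, bound `b + c`, for all
  laws (`N = 0`, `b = 2 s log 2` : the extension inequality);
* `XFH_act` : the gain from the inactive part.
-/

set_option autoImplicit false

namespace Vale.Agent.P127.U

open Filter Topology Vale.Agent.P127 Vale.Agent.P127.Stk Sys

/-- window inequality for `XFH`, scale `s` -/
def WinH (lam N Np b c : ℝ) (s : ℕ) : Prop :=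
  ∀ (Ω : Type) [Fintype Ω] (γ : Type) (P : Law Ω) (l : Ω → Ln) (t : Ω → ℝ) (n : ℕ) (C : Ω → γ),
    GoodF P l t → s ≤ n →
    XFH lam Np P s n l t C ≤ excH lam Np P n l C + b + c + N * DF P s n l t C

namespace HMix

variable {lam Np : ℝ}

/-- **gain from the inactive part** : `b1` the rate of the window inequality, `b2` the one of the
extension -/
theorem XFH_act (hl : 0 ≤ lam ∧ lam ≤ 1) (hNp : 0 ≤ Np) {N b1 b2 c1 c2 : ℝ} (hN : 0 ≤ N) {s : ℕ}
    (hW : WinH lam N Np b1 c1 s) (hE : WinH lam 0 Np b2 c2 s) {Ω : Type} [Fintype Ω] {γ : Type}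
    (P : Law Ω) (l : Ω → Ln) (t : Ω → ℝ) (n : ℕ) (C : Ω → γ) (hg : GoodF P l t) (hs : s ≤ n)
    (c : ℝ) :
    XFH lam Np P s n l t C - excH lam Np P n l C +
      P.pr (Act.gs P (fun ω => fl1 s (t ω)) (fun ω => (tb n (l ω), C ω)) c) false *
        ((b1 + c1) + N * (s * Real.log 2) - N * c - (b2 + c2)) ≤
      b1 + N * DF P s n l t C + (c1 + N * Real.log 2 + ((2 + Np) * Real.log 2 + 1)) := by
  set g := Act.gs P (fun ω => fl1 s (t ω)) (fun ω => (tb n (l ω), C ω)) c with hgd
  have h := XFH_event (N := Np) hl hNp P s n l t C g (fun ω hω => (hg ω hω).1)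
    (B1 := b1 + c1 + N * DF (P.cond g true) s n l t C) (B2 := b2 + c2)
    (fun h0 => by
      have := hW Ω γ (P.cond g true) l t n C (fun ω hω => hg ω (Act.cond_pos h0 hω).1) hs
      linarith)
    (fun h0 => by
      have := hE Ω γ (P.cond g false) l t n C (fun ω hω => hg ω (Act.cond_pos h0 hω).1) hs
      linarith)
  have h2 := Act.act_step P (fun ω => fl1 s (t ω)) (fun ω => (tb n (l ω), C ω)) (c := c) (N := N)
    (B1 := b1 + c1) (B2 := b2 + c2) (S' := s * Real.log 2) (err := (2 + Np) * Real.log 2 + 1)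
    (D := XFH lam Np P s n l t C - excH lam Np P n l C) hN (by
      rw [← hgd]
      unfold DF at h
      nlinarith [h])
  rw [← hgd] at h2
  unfold DF
  linarith

end HMix

end Vale.Agent.P127.U
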