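import Vale.Agent.P127.U.H404.Event
import Vale.Agent.P127.U.Lam.PathH
import Vale.Agent.P127.U.Lam.IncDefs

/-!
# P127 / U : the functional of the path and events (helper404)

* `EFH_le_mix`, `EFH_ge_mix`, `EFH_event` : mixtures and events for `Pf.EFH`;
* `Nd_cond` : normalised data for the conditioned law;
* `incr_event` : `Incr.event` for a functional `F (law)` from `win`, `ext` for the conditioned laws.
-/

set_option autoImplicit false

namespace Vale.Agent.P127.U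

open Filter Topology Vale.Agent.P127 Vale.Agent.P127.Stk Sys

namespace HMix

open JSB

variable {lam Λ : ℝ} {Ω : Type} [Fintype Ω]

theorem EFH_eq {γ : Type*} (P : Law Ω) (n a r : ℕ) (l : Ω → Ln) (t v : Ω → ℝ) (C : Ω → γ) :
    Pf.EFH P lam Λ n a r l t v C =
      FG lam Λ P (n - a - r) (Pf.lnS a r l t v) (fun ω => (Pf.cell a r l t v ω, C ω))
        (fun ω => tb n (l ω))
        (fun ω => (tb (n - a - r) (Pf.lnS a r l t v ω), (Pf.cell a r l t v ω, C ω))) -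
        (1 + lam) * r * Real.log 2 := rfl

/-- mixtures, upper bound -/
theorem EFH_le_mix (hl : 0 ≤ lam ∧ lam ≤ 1) (hΛ : 0 ≤ Λ) {γ δ : Type*} (P : Law Ω) (n a r : ℕ)
    (l : Ω → Ln) (t v : Ω → ℝ) (C : Ω → γ) (D : Ω → δ) :
    Pf.EFH P lam Λ n a r l t v C ≤
      ∑ z ∈ img D, P.pr D z * Pf.EFH (P.cond D z) lam Λ n a r l t v C + (2 + Λ) * P.H D := by
  have h1 := FG_le_mix hl hΛ P (n - a - r) (Pf.lnS a r l t v)
    (fun ω => (Pf.cell a r l t v ω, C ω)) (fun ω => tb n (l ω))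
    (fun ω => (tb (n - a - r) (Pf.lnS a r l t v ω), (Pf.cell a r l t v ω, C ω))) D
    (Pf.lnS_ok' P a r l t v)
  simp only [EFH_eq, mul_sub, Finset.sum_sub_distrib]
  rw [← Finset.sum_mul, P.sum_pr_image D, one_mul]
  linarith

/-- mixtures, lower bound -/
theorem EFH_ge_mix (hl : 0 ≤ lam ∧ lam ≤ 1) (hΛ : 0 ≤ Λ) {γ : Type*} {δ : Type} (P : Law Ω)
    (n a r : ℕ) (l : Ω → Ln) (t v : Ω → ℝ) (C : Ω → γ) (D : Ω → δ) :
    ∑ z ∈ img D, P.pr D z * Pf.EFH (P.cond D z) lam Λ n a r l t v C ≤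
      Pf.EFH P lam Λ n a r l t v C + 1 := by
  have h1 := FG_ge_mix (lam := lam) hl hΛ P (n - a - r) (Pf.lnS a r l t v)
    (fun ω => (Pf.cell a r l t v ω, C ω)) (fun ω => tb n (l ω))
    (fun ω => (tb (n - a - r) (Pf.lnS a r l t v ω), (Pf.cell a r l t v ω, C ω))) D
    (Pf.lnS_ok' P a r l t v)
  simp only [EFH_eq, mul_sub, Finset.sum_sub_distrib]
  rw [← Finset.sum_mul, P.sum_pr_image D, one_mul]
  linarith

/-- **event** -/
theorem EFH_event (hl : 0 ≤ lam ∧ lam ≤ 1) (hΛ : 0 ≤ Λ) {γ : Type*} (P : Law Ω) (g : Ω → Bool)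
    (n a a' r r' : ℕ) (l : Ω → Ln) (t v : Ω → ℝ) (C : Ω → γ) {b1 b2 : ℝ}
    (h3 : 0 < P.pr g true → Pf.EFH (P.cond g true) lam Λ n a' r' l t v C ≤
      Pf.EFH (P.cond g true) lam Λ n a r l t v C + b1)
    (h4 : 0 < P.pr g false → Pf.EFH (P.cond g false) lam Λ n a' r' l t v C ≤
      Pf.EFH (P.cond g false) lam Λ n a r l t v C + b2) :
    Pf.EFH P lam Λ n a' r' l t v C ≤ Pf.EFH P lam Λ n a r l t v C + P.pr g true * b1 +
      (1 - P.pr g true) * b2 + ((2 + Λ) * Real.log 2 + 1) := by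
  simp only [EFH_eq] at h3 h4 ⊢
  exact FG_event hl hΛ P g (n - a - r) (n - a' - r') (Pf.lnS a r l t v) (Pf.lnS a' r' l t v)
    _ _ _ _ _ _ _ _ (Pf.lnS_ok' P a r l t v) (Pf.lnS_ok' P a' r' l t v) h3 h4

/-- normalised data for the conditioned law -/
theorem Nd_cond {K : ℝ} {Q : Law Ω} {l : Ω → Ln} {t v : Ω → ℝ} {n h q : ℕ}
    (H : Inc.Nd K Q l t v n h q) {γ : Type*} (C : Ω → γ) (z : γ) :
    Inc.Nd K (Q.cond C z) l t v n h q where
  good := fun ω hω => H.good ω (cond_supp Q C z hω)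
  sl := fun ω hω => H.sl ω (cond_supp Q C z hω)
  rnd := fun ω ω' hω hω' => H.rnd ω ω' (cond_supp Q C z hω) (cond_supp Q C z hω')
  nq := H.nq
  nK := H.nK

/-- **`Incr.event`** for a functional `F` of the law, from `win` and `ext` for the conditioned laws -/
theorem incr_event {N β ε B B' : ℝ} {Q : Law Ω} {l : Ω → Ln} {t v : Ω → ℝ} {n : ℕ}
    (F : Law Ω → ℕ → ℕ → ℝ) {a a' r r' : ℕ} (G : Ω → Bool)
    (h1 : F Q a' r' ≤ Q.pr G true * F (Q.cond G true) a' r' +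
      Q.pr G false * F (Q.cond G false) a' r' + B')
    (h2 : Q.pr G true * F (Q.cond G true) a r + Q.pr G false * F (Q.cond G false) a r ≤
      F Q a r + B')
    (hw : ∀ b, 0 < Q.pr G b → F (Q.cond G b) a' r' ≤ F (Q.cond G b) a r +
      β * ((a' : ℝ) - a) * Real.log 2 + N * (((a' : ℝ) - a) * Real.log 2 -
        Stk.hc (Q.cond G b) (fun ω => fl1 a' (t ω)) (fun ω => (tb n (l ω), Inc.st t v a r ω))) +
        Inc.er ε B a a' r r')
    (he : ∀ b, 0 < Q.pr G b → F (Q.cond G b) a' r' ≤ F (Q.cond G b) a r +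
      2 * ((a' : ℝ) - a) * Real.log 2 + Inc.er ε B a a' r r') :
    F Q a' r' ≤ F Q a r + Q.pr G true * (β * ((a' : ℝ) - a) * Real.log 2) +
      (1 - Q.pr G true) * (2 * ((a' : ℝ) - a) * Real.log 2) +
      N * (Q.pr G true * (((a' : ℝ) - a) * Real.log 2 -
        Stk.hc (Q.cond G true) (fun ω => fl1 a' (t ω)) (fun ω => (tb n (l ω), Inc.st t v a r ω)))) +
      Inc.er ε (B + 2 * B') a a' r r' := by
  have h := event_abs Q G (fun P => F P a r) (fun P => F P a' r') h1 h2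
    (b1 := β * ((a' : ℝ) - a) * Real.log 2 + N * (((a' : ℝ) - a) * Real.log 2 -
        Stk.hc (Q.cond G true) (fun ω => fl1 a' (t ω)) (fun ω => (tb n (l ω), Inc.st t v a r ω))) +
        Inc.er ε B a a' r r')
    (b2 := 2 * ((a' : ℝ) - a) * Real.log 2 + Inc.er ε B a a' r r')
    (fun h0 => by have := hw true h0; linarith) (fun h0 => by have := he false h0; linarith)
  have e : Inc.er ε (B + 2 * B') a a' r r' = Inc.er ε B a a' r r' + 2 * B' := by
    unfold Inc.er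
    ring
  rw [e]
  refine h.trans (le_of_eq ?_)
  ring

end HMix

end Vale.Agent.P127.U
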