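import Vale.Agent.P127.U.Lam.HBall
import Vale.Agent.P127.U.Lam.JL
import Vale.Agent.P127.U.H404.Act

/-!
# P127 / U : the functional with the softness of the shape, mixtures and events (helper404)

* `excH_cond_sum`, `excH_le_cond_sum` : `excH` given `(D, C)` is the average over the values of `C` of
  the `excH` given `D` (up to `1`);
* `XFH_le_cond_sum`, `XFH_cond_le`, `XFH_le_mix`, `excH_ge_mix`;
* `XFH_event` : the window inequality with an event.
-/

set_option autoImplicit false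

namespace Vale.Agent.P127.U

open Filter Topology Vale.Agent.P127 Vale.Agent.P127.Stk Sys

namespace HMix

open JSB

variable {lam N : ℝ}

section fin

variable {Ω : Type} [Fintype Ω] {A T V : Type*}

theorem exists_near (hl : 0 ≤ lam ∧ lam ≤ 1) (hN : 0 ≤ N) {P : Law Ω} {n : ℕ} {l : Ω → Ln}
    (C : Ω → V) (h : ∀ ω, 0 < P.w ω → LnOk (l ω)) :
    ∃ (Ω' : Type) (_ : Fintype Ω') (P' : Law Ω') (π : Ω' → Ω) (A : Bx Ω'),
      (∀ ω, P'.pr π ω = P.w ω) ∧ (∀ ω, 0 < P'.w ω → Sub 1 ((tbx n l).comp π) A ω) ∧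
      excH lam N P n l C - 1 ≤ exVl lam P' ((tbx n l).comp π) A (fun ω => C (π ω)) +
        N * Stk.hc P' (fun ω => (A.k ω, A.j ω)) (fun ω => (tb n (l (π ω)), C (π ω))) := by
  obtain ⟨v, hv, hv2⟩ := exists_lt_of_lt_csSup (HX.exSetH_ne (lam := lam) (N := N) (n := n) C h)
    (show excH lam N P n l C - 1 < sSup (exSetH lam N P n l C) by
      show excH lam N P n l C - 1 < excH lam N P n l C
      linarith)
  obtain ⟨Ω', iF, P', π, A, h1, h2, rfl⟩ := hv
  exact ⟨Ω', iF, P', π, A, h1, h2, hv2.le⟩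

/-- `excH` given `(D, C)` is at least the average of the `excH` given `D` for the values of `C` -/
theorem excH_cond_sum (hl : 0 ≤ lam ∧ lam ≤ 1) (hN : 0 ≤ N) {δ : Type*} {γ : Type} (P : Law Ω)
    (n : ℕ) (l : Ω → Ln) (D : Ω → δ) (C : Ω → γ) (h : ∀ ω, 0 < P.w ω → LnOk (l ω)) :
    ∑ z ∈ img C, P.pr C z * excH lam N (P.cond C z) n l D ≤
      excH lam N P n l (fun ω => (D ω, C ω)) + 1 := by
  classical
  have hnear := fun z : {z // z ∈ img C} => exists_near (N := N) (n := n) hl hN (P := P.cond C z.1)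
    (l := l) D (fun ω hω => h ω (cond_supp P C z.1 hω))
  choose Ω' iF Q π W g1 g2 g3 using hnear
  have a0 : ∀ z : {z // z ∈ img C}, 0 ≤ P.pr C z.1 := fun z => P.pr_nonneg _ _
  have a1 : ∑ z : {z // z ∈ img C}, P.pr C z.1 = 1 := by
    rw [Finset.sum_coe_sort (img C) (fun z => P.pr C z)]
    exact P.sum_pr_image C
  set M : Law (Σ z, Ω' z) := sumL (fun z : {z // z ∈ img C} => P.pr C z.1) a0 a1 Q with hM
  have hMw : ∀ p : (Σ z, Ω' z), M.w p = P.pr C p.1.1 * (Q p.1).w p.2 := fun p => rfl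
  set ρ : (Σ z, Ω' z) → Ω := fun p => π p.1 p.2 with hρ
  set W' : Bx (Σ z, Ω' z) := ⟨fun p => (W p.1).l p.2, fun p => (W p.1).θ p.2,
    fun p => (W p.1).k p.2, fun p => (W p.1).j p.2⟩ with hW'
  have hpos : ∀ p : (Σ z, Ω' z), 0 < M.w p → 0 < P.pr C p.1.1 ∧ 0 < (Q p.1).w p.2 := by
    intro p hp
    rw [hMw] at hp
    have b1 := P.pr_nonneg C p.1.1
    have b2 := (Q p.1).nn p.2
    constructor
    · rcases b1.eq_or_lt with h2 | h2
      · rw [← h2, zero_mul] at hp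
        exact absurd hp (lt_irrefl 0)
      · exact h2
    · rcases b2.eq_or_lt with h2 | h2
      · rw [← h2, mul_zero] at hp
        exact absurd hp (lt_irrefl 0)
      · exact h2
  have hC : ∀ p : (Σ z, Ω' z), 0 < M.w p → C (ρ p) = p.1.1 := by
    intro p hp
    obtain ⟨b1, b2⟩ := hpos p hp
    refine cond_supp' P C p.1.1 b1 ?_
    rw [← g1 p.1 (ρ p)]
    exact (Q p.1).pr_pos (π p.1) b2
  have hpr : ∀ ω, M.pr ρ ω = P.w ω := by
    intro ω
    rw [hM, sumL_pr]
    have e : ∀ z : {z // z ∈ img C}, (Q z).pr (fun ω' => ρ ⟨z, ω'⟩) ω = (P.cond C z.1).w ω :=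
      fun z => g1 z ω
    simp only [e]
    rw [Finset.sum_coe_sort (img C) (fun z => P.pr C z * (P.cond C z).w ω)]
    exact cond_avg P C ω
  set B := tbx n l with hB
  have hsub : ∀ p, 0 < M.w p → Sub 1 (B.comp ρ) W' p := fun p hp => g2 p.1 p.2 (hpos p hp).2
  have hle := HX.le_excH (n := n) (l := l) hl hN (C := fun ω => (D ω, C ω)) hpr hsub
  have hge : ∑ z : {z // z ∈ img C}, P.pr C z.1 *
      exVl lam (Q z) (B.comp (π z)) (W z) (fun ω => D (π z ω)) ≤
      exVl lam M (B.comp ρ) W' (fun p => (D (ρ p), C (ρ p))) := by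
    have e1 : Stk.hc M (B.comp ρ).lab (fun p => ((W'.lab p, D (ρ p)), p.1)) ≤
        Stk.hc M (B.comp ρ).lab (fun p => (W'.lab p, (D (ρ p), C (ρ p)))) := by
      refine hc_mono_right M _ ?_
      intro p p' hp hp' e
      simp only [Prod.mk.injEq] at e
      show (W'.lab p, (D (ρ p), C (ρ p))) = (W'.lab p', (D (ρ p'), C (ρ p')))
      rw [hC p hp, hC p' hp', e.1.1, e.1.2, e.2]
    have e2 := sumL_hc (a := fun z : {z // z ∈ img C} => P.pr C z.1) (h0 := a0) (h1 := a1)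
      (Q := Q) (B.comp ρ).lab (fun p => (W'.lab p, D (ρ p)))
    have e3 := sumL_ex (a := fun z : {z // z ∈ img C} => P.pr C z.1) (h0 := a0) (h1 := a1)
      (Q := Q) (fun p => (B.comp ρ).szl lam p - W'.szl lam p)
    rw [← hM] at e2 e3
    rw [e2] at e1
    have e4 : ∑ z : {z // z ∈ img C}, P.pr C z.1 *
        exVl lam (Q z) (B.comp (π z)) (W z) (fun ω => D (π z ω)) =
        ∑ z : {z // z ∈ img C}, P.pr C z.1 * Stk.hc (Q z) (fun ω => (B.comp ρ).lab ⟨z, ω⟩)
          (fun ω => (W'.lab ⟨z, ω⟩, D (ρ ⟨z, ω⟩))) -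
        Real.log 2 * ∑ z : {z // z ∈ img C}, P.pr C z.1 *
          (Q z).ex (fun ω => (B.comp ρ).szl lam ⟨z, ω⟩ - W'.szl lam ⟨z, ω⟩) := by
      rw [Finset.mul_sum, ← Finset.sum_sub_distrib]
      refine Finset.sum_congr rfl fun z _ => ?_
      unfold exVl
      have f1 : (B.comp (π z)).lab = fun ω => (B.comp ρ).lab ⟨z, ω⟩ := rfl
      have f2 : (W z).lab = fun ω => W'.lab ⟨z, ω⟩ := rfl
      have f3 : (fun ω => (B.comp (π z)).szl lam ω - (W z).szl lam ω) =
        fun ω => (B.comp ρ).szl lam ⟨z, ω⟩ - W'.szl lam ⟨z, ω⟩ := rfl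
      rw [f1, f2, f3]
      ring
    rw [e4]
    unfold exVl
    rw [e3]
    linarith
  -- the softness of the shape
  have hge2 : ∑ z : {z // z ∈ img C}, P.pr C z.1 *
      Stk.hc (Q z) (fun ω => ((W z).k ω, (W z).j ω)) (fun ω => (tb n (l (π z ω)), D (π z ω))) ≤
      Stk.hc M (fun p => (W'.k p, W'.j p)) (fun p => (tb n (l (ρ p)), (D (ρ p), C (ρ p)))) := by
    have e1 : Stk.hc M (fun p => (W'.k p, W'.j p)) (fun p => ((tb n (l (ρ p)), D (ρ p)), p.1)) ≤
        Stk.hc M (fun p => (W'.k p, W'.j p)) (fun p => (tb n (l (ρ p)), (D (ρ p), C (ρ p)))) := by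
      refine hc_mono_right M _ ?_
      intro p p' hp hp' e
      simp only [Prod.mk.injEq] at e
      show (tb n (l (ρ p)), (D (ρ p), C (ρ p))) = (tb n (l (ρ p')), (D (ρ p'), C (ρ p')))
      rw [hC p hp, hC p' hp', e.1.1, e.1.2, e.2]
    have e2 := sumL_hc (a := fun z : {z // z ∈ img C} => P.pr C z.1) (h0 := a0) (h1 := a1)
      (Q := Q) (fun p => (W'.k p, W'.j p)) (fun p => (tb n (l (ρ p)), D (ρ p)))
    rw [← hM] at e2
    rw [e2] at e1
    exact e1
  have hav : ∑ z ∈ img C, P.pr C z * excH lam N (P.cond C z) n l D - 1 ≤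
      ∑ z : {z // z ∈ img C}, P.pr C z.1 *
        (exVl lam (Q z) (B.comp (π z)) (W z) (fun ω => D (π z ω)) +
          N * Stk.hc (Q z) (fun ω => ((W z).k ω, (W z).j ω))
            (fun ω => (tb n (l (π z ω)), D (π z ω)))) := by
    have e : ∑ z ∈ img C, P.pr C z * excH lam N (P.cond C z) n l D - 1 =
        ∑ z : {z // z ∈ img C}, P.pr C z.1 * (excH lam N (P.cond C z.1) n l D - 1) := by
      simp only [mul_sub, mul_one, Finset.sum_sub_distrib]
      rw [a1, Finset.sum_coe_sort (img C)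
        (fun z => P.pr C z * excH lam N (P.cond C z) n l D)]
    rw [e]
    exact Finset.sum_le_sum fun z _ => mul_le_mul_of_nonneg_left (g3 z) (a0 z)
  have e5 : ∑ z : {z // z ∈ img C}, P.pr C z.1 *
        (exVl lam (Q z) (B.comp (π z)) (W z) (fun ω => D (π z ω)) +
          N * Stk.hc (Q z) (fun ω => ((W z).k ω, (W z).j ω))
            (fun ω => (tb n (l (π z ω)), D (π z ω)))) =
      ∑ z : {z // z ∈ img C}, P.pr C z.1 *
        exVl lam (Q z) (B.comp (π z)) (W z) (fun ω => D (π z ω)) +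
      N * ∑ z : {z // z ∈ img C}, P.pr C z.1 *
        Stk.hc (Q z) (fun ω => ((W z).k ω, (W z).j ω)) (fun ω => (tb n (l (π z ω)), D (π z ω))) := by
    rw [Finset.mul_sum, ← Finset.sum_add_distrib]
    exact Finset.sum_congr rfl fun z _ => by ring
  rw [e5] at hav
  have h6 := mul_le_mul_of_nonneg_left hge2 hN
  linarith

/-- `excH` given `(D, C)` is at most the average of the `excH` given `D` for the values of `C` -/
theorem excH_le_cond_sum (hl : 0 ≤ lam ∧ lam ≤ 1) (hN : 0 ≤ N) {δ γ : Type*} (P : Law Ω)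
    (n : ℕ) (l : Ω → Ln) (D : Ω → δ) (C : Ω → γ) (h : ∀ ω, 0 < P.w ω → LnOk (l ω)) :
    excH lam N P n l (fun ω => (D ω, C ω)) ≤
      ∑ z ∈ img C, P.pr C z * excH lam N (P.cond C z) n l D := by
  classical
  refine csSup_le (HX.exSetH_ne _ h) ?_
  rintro v ⟨Ω', _, P', π, W, h1, h2, rfl⟩
  set C' : Ω' → γ := fun ω => C (π ω) with hC'
  set B := tbx n l with hB
  have e1 : exVl lam P' (B.comp π) W (fun ω => (D (π ω), C (π ω))) +
      N * Stk.hc P' (fun ω => (W.k ω, W.j ω)) (fun ω => (tb n (l (π ω)), (D (π ω), C (π ω)))) =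
      ∑ z ∈ img C', P'.pr C' z * (exVl lam (P'.cond C' z) (B.comp π) W (fun ω => D (π ω)) +
        N * Stk.hc (P'.cond C' z) (fun ω => (W.k ω, W.j ω))
          (fun ω => (tb n (l (π ω)), D (π ω)))) := by
    have a1 : Stk.hc P' (B.comp π).lab (fun ω => (W.lab ω, (D (π ω), C (π ω)))) =
        Stk.hc P' (B.comp π).lab (fun ω => ((W.lab ω, D (π ω)), C' ω)) := by
      refine le_antisymm ?_ ?_
      · refine Stk.hc_mono_right P' _ fun ω ω' _ _ e => ?_
        simp only [Prod.mk.injEq, hC'] at e ⊢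
        exact ⟨⟨e.1, e.2.1⟩, e.2.2⟩
      · refine Stk.hc_mono_right P' _ fun ω ω' _ _ e => ?_
        simp only [Prod.mk.injEq, hC'] at e ⊢
        exact ⟨e.1.1, e.1.2, e.2⟩
    have b1 : Stk.hc P' (fun ω => (W.k ω, W.j ω)) (fun ω => (tb n (l (π ω)), (D (π ω), C (π ω)))) =
        Stk.hc P' (fun ω => (W.k ω, W.j ω)) (fun ω => ((tb n (l (π ω)), D (π ω)), C' ω)) := by
      refine le_antisymm ?_ ?_
      · refine Stk.hc_mono_right P' _ fun ω ω' _ _ e => ?_
        simp only [Prod.mk.injEq, hC'] at e ⊢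
        exact ⟨⟨e.1, e.2.1⟩, e.2.2⟩
      · refine Stk.hc_mono_right P' _ fun ω ω' _ _ e => ?_
        simp only [Prod.mk.injEq, hC'] at e ⊢
        exact ⟨e.1.1, e.1.2, e.2⟩
    have a2 := hc_cond_sum P' (B.comp π).lab (fun ω => (W.lab ω, D (π ω))) C'
    have b2 := hc_cond_sum P' (fun ω => (W.k ω, W.j ω)) (fun ω => (tb n (l (π ω)), D (π ω))) C'
    have a3 := Lam.ex_cond_sum P' (fun ω => (B.comp π).szl lam ω - W.szl lam ω) C'
    have e6 : ∑ z ∈ img C', P'.pr C' z * (exVl lam (P'.cond C' z) (B.comp π) W (fun ω => D (π ω)) +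
        N * Stk.hc (P'.cond C' z) (fun ω => (W.k ω, W.j ω))
          (fun ω => (tb n (l (π ω)), D (π ω)))) =
        ∑ z ∈ img C', P'.pr C' z * exVl lam (P'.cond C' z) (B.comp π) W (fun ω => D (π ω)) +
        N * ∑ z ∈ img C', P'.pr C' z * Stk.hc (P'.cond C' z) (fun ω => (W.k ω, W.j ω))
          (fun ω => (tb n (l (π ω)), D (π ω))) := by
      rw [Finset.mul_sum, ← Finset.sum_add_distrib]
      exact Finset.sum_congr rfl fun z _ => by ring
    rw [e6, b1, b2]
    congr 1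
    unfold exVl
    rw [a1, a2, ← a3, Finset.mul_sum, ← Finset.sum_sub_distrib]
    exact Finset.sum_congr rfl fun z _ => by ring
  rw [e1]
  have hsub : img C' ⊆ img C := by
    intro z hz
    obtain ⟨ω, rfl⟩ := mem_img.1 hz
    exact mem_img.2 ⟨π ω, rfl⟩
  have hprz : ∀ z, P'.pr C' z = P.pr C z := fun z => Stk.pr_law_aux P' P π h1 C z
  have e2 : ∑ z ∈ img C', P.pr C z * excH lam N (P.cond C z) n l D =
      ∑ z ∈ img C, P.pr C z * excH lam N (P.cond C z) n l D := by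
    refine Finset.sum_subset hsub fun z _ hz => ?_
    have : P.pr C z = 0 := by
      rw [← hprz z]
      unfold Law.pr
      refine Finset.sum_eq_zero fun ω hω => ?_
      have e : C' ω = z := by simpa using hω
      exact absurd (mem_img.2 ⟨ω, e⟩) hz
    rw [this, zero_mul]
  rw [← e2]
  refine Finset.sum_le_sum fun z _ => ?_
  rw [hprz z]
  rcases (P.pr_nonneg C z).eq_or_lt with h0 | h0
  · rw [← h0, zero_mul, zero_mul]
  · refine mul_le_mul_of_nonneg_left ?_ h0.le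
    exact HX.le_excH hl hN (C := D) (Lam.cond_ext h1 C h0) fun ω hω => h2 ω (cond_supp P' C' z hω)

/-- less side information, larger `excH` -/
theorem excH_anti (hl : 0 ≤ lam ∧ lam ≤ 1) (hN : 0 ≤ N) {δ γ : Type*} {P : Law Ω}
    {n : ℕ} {l : Ω → Ln} (D : Ω → δ) (C : Ω → γ) (h : ∀ ω, 0 < P.w ω → LnOk (l ω)) :
    excH lam N P n l (fun ω => (D ω, C ω)) ≤ excH lam N P n l D := by
  have h1 := HX.excH_le_add (n := n) (l := l) hl hN (fun ω => (D ω, C ω)) D h
  have h2 : Stk.hc P D (fun ω => (D ω, C ω)) = 0 :=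
    Stk.hc_zero P fun _ _ _ _ e => congrArg Prod.fst e
  rw [h2, mul_zero, add_zero] at h1
  exact h1

/-- **no cost** : `excH` is concave up to `1` -/
theorem excH_ge_mix (hl : 0 ≤ lam ∧ lam ≤ 1) (hN : 0 ≤ N) {δ : Type*} {γ : Type} (P : Law Ω)
    (n : ℕ) (l : Ω → Ln) (D : Ω → δ) (C : Ω → γ) (h : ∀ ω, 0 < P.w ω → LnOk (l ω)) :
    ∑ z ∈ img C, P.pr C z * excH lam N (P.cond C z) n l D ≤ excH lam N P n l D + 1 :=
  (excH_cond_sum hl hN P n l D C h).trans (by
    have := excH_anti (n := n) hl hN D C h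
    linarith)

omit [Fintype Ω] in
theorem blF_ok' {s : ℕ} {l : Ω → Ln} {t : Ω → ℝ} {ω : Ω} (h : LnOk (l ω)) : LnOk (blF s l t ω) := by
  refine ⟨fun j => ?_, h.2⟩
  show |Int.fract _| ≤ 1
  rw [abs_of_nonneg (Int.fract_nonneg _)]
  exact (Int.fract_lt_one _).le

/-- `XFH` given `(D, C)` is at most the average over the values of `C` -/
theorem XFH_le_cond_sum (hl : 0 ≤ lam ∧ lam ≤ 1) (hN : 0 ≤ N) {δ γ : Type*} (P : Law Ω) (s n : ℕ)
    (l : Ω → Ln) (t : Ω → ℝ) (D : Ω → δ) (C : Ω → γ) (h : ∀ ω, 0 < P.w ω → LnOk (l ω)) :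
    XFH lam N P s n l t (fun ω => (D ω, C ω)) ≤
      ∑ z ∈ img C, P.pr C z * XFH lam N (P.cond C z) s n l t D := by
  have hok : ∀ ω, 0 < P.w ω → LnOk (blF s l t ω) := fun ω hω => blF_ok' (h ω hω)
  have h1 : excH lam N P (n - s) (blF s l t) (fun ω => (pq s (ptF l t ω), (D ω, C ω))) ≤
      ∑ z ∈ img C, P.pr C z * excH lam N (P.cond C z) (n - s) (blF s l t)
        (fun ω => (pq s (ptF l t ω), D ω)) := by
    refine le_trans ?_ (excH_le_cond_sum hl hN P _ _ (fun ω => (pq s (ptF l t ω), D ω)) C hok)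
    have h3 := HX.excH_le_add (lam := lam) (N := N) (n := n - s) (l := blF s l t) hl hN
      (fun ω => (pq s (ptF l t ω), (D ω, C ω))) (fun ω => ((pq s (ptF l t ω), D ω), C ω)) hok
    rw [Stk.hc_zero P fun ω ω' _ _ e => ?_, mul_zero, add_zero] at h3
    · exact h3
    · simp only [Prod.mk.injEq] at e ⊢
      exact ⟨⟨e.1, e.2.1⟩, e.2.2⟩
  have h2 : Stk.hc P (fun ω => tb n (l ω)) (fun ω => (tlF s n l t ω, (D ω, C ω))) =
      ∑ z ∈ img C, P.pr C z * Stk.hc (P.cond C z) (fun ω => tb n (l ω))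
        (fun ω => (tlF s n l t ω, D ω)) := by
    rw [← hc_cond_sum]
    refine le_antisymm ?_ ?_
    · refine Stk.hc_mono_right P _ fun ω ω' _ _ e => ?_
      simp only [Prod.mk.injEq] at e ⊢
      exact ⟨⟨e.1, e.2.1⟩, e.2.2⟩
    · refine Stk.hc_mono_right P _ fun ω ω' _ _ e => ?_
      simp only [Prod.mk.injEq] at e ⊢
      exact ⟨e.1.1, e.1.2, e.2⟩
  unfold XFH
  rw [h2]
  simp only [mul_add, Finset.sum_add_distrib]
  linarith

/-- adding side information to `XFH` -/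
theorem XFH_cond_le (hl : 0 ≤ lam ∧ lam ≤ 1) (hN : 0 ≤ N) {δ γ : Type*} (P : Law Ω) (s n : ℕ)
    (l : Ω → Ln) (t : Ω → ℝ) (D : Ω → δ) (C : Ω → γ) (h : ∀ ω, 0 < P.w ω → LnOk (l ω)) :
    XFH lam N P s n l t D ≤ XFH lam N P s n l t (fun ω => (D ω, C ω)) + (2 + N) * P.H C := by
  have hok : ∀ ω, 0 < P.w ω → LnOk (blF s l t ω) := fun ω hω => blF_ok' (h ω hω)
  have h3 := HX.excH_le_add (lam := lam) (N := N) (n := n - s) (l := blF s l t) hl hN
    (fun ω => (pq s (ptF l t ω), D ω)) (fun ω => (pq s (ptF l t ω), (D ω, C ω))) hok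
  have h4 : Stk.hc P (fun ω => (pq s (ptF l t ω), (D ω, C ω))) (fun ω => (pq s (ptF l t ω), D ω)) ≤
      P.H C := by
    refine (Stk.hc_mono_left P (X' := C) fun ω ω' _ _ e => ?_).trans (Stk.hc_le_H P _ _)
    simp only [Prod.mk.injEq] at e ⊢
    exact ⟨e.2.1, e.2.2, e.1⟩
  have h5 := mul_le_mul_of_nonneg_left h4 (show 0 ≤ 1 + N by linarith)
  have h6 := Stk.hc_le_add' P (fun ω => tb n (l ω)) C (fun ω => (tlF s n l t ω, D ω))
  have h7 := Stk.hc_le_H P C (fun ω => (tlF s n l t ω, D ω))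
  have h8 : Stk.hc P (fun ω => tb n (l ω)) (fun ω => (C ω, (tlF s n l t ω, D ω))) ≤
      Stk.hc P (fun ω => tb n (l ω)) (fun ω => (tlF s n l t ω, (D ω, C ω))) := by
    refine Stk.hc_mono_right P _ fun ω ω' _ _ e => ?_
    simp only [Prod.mk.injEq] at e ⊢
    exact ⟨e.2.1, e.2.2, e.1⟩
  unfold XFH
  linarith

/-- **mixtures** -/
theorem XFH_le_mix (hl : 0 ≤ lam ∧ lam ≤ 1) (hN : 0 ≤ N) {δ γ : Type*} (P : Law Ω) (s n : ℕ)
    (l : Ω → Ln) (t : Ω → ℝ) (D : Ω → δ) (C : Ω → γ) (h : ∀ ω, 0 < P.w ω → LnOk (l ω)) :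
    XFH lam N P s n l t D ≤
      ∑ z ∈ img C, P.pr C z * XFH lam N (P.cond C z) s n l t D + (2 + N) * P.H C := by
  have h1 := XFH_cond_le hl hN P s n l t D C h
  have h2 := XFH_le_cond_sum hl hN P s n l t D C h
  linarith

theorem H_bool_le (P : Law Ω) (g : Ω → Bool) : P.H g ≤ Real.log 2 := by
  have := P.H_le_log_card g
  simpa using this

/-- **the window inequality with an event** -/
theorem XFH_event (hl : 0 ≤ lam ∧ lam ≤ 1) (hN : 0 ≤ N) {δ : Type*} (P : Law Ω) (s n : ℕ)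
    (l : Ω → Ln) (t : Ω → ℝ) (D : Ω → δ) (g : Ω → Bool) (h : ∀ ω, 0 < P.w ω → LnOk (l ω))
    {B1 B2 : ℝ}
    (h1 : 0 < P.pr g true → XFH lam N (P.cond g true) s n l t D ≤
      excH lam N (P.cond g true) n l D + B1)
    (h2 : 0 < P.pr g false → XFH lam N (P.cond g false) s n l t D ≤
      excH lam N (P.cond g false) n l D + B2) :
    XFH lam N P s n l t D ≤ excH lam N P n l D + P.pr g true * B1 + P.pr g false * B2 +
      ((2 + N) * Real.log 2 + 1) := by
  have a1 := XFH_le_mix hl hN P s n l t D g h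
  have a2 := excH_ge_mix (lam := lam) hl hN P n l D g h
  rw [Act.sum_bool P g fun z => XFH lam N (P.cond g z) s n l t D] at a1
  rw [Act.sum_bool P g fun z => excH lam N (P.cond g z) n l D] at a2
  have a3 := mul_le_mul_of_nonneg_left (H_bool_le P g) (show 0 ≤ 2 + N by linarith)
  have a4 : P.pr g true * XFH lam N (P.cond g true) s n l t D ≤
      P.pr g true * (excH lam N (P.cond g true) n l D + B1) := by
    rcases (P.pr_nonneg g true).eq_or_lt with h0 | h0
    · rw [← h0, zero_mul, zero_mul]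
    · exact mul_le_mul_of_nonneg_left (h1 h0) h0.le
  have a5 : P.pr g false * XFH lam N (P.cond g false) s n l t D ≤
      P.pr g false * (excH lam N (P.cond g false) n l D + B2) := by
    rcases (P.pr_nonneg g false).eq_or_lt with h0 | h0
    · rw [← h0, zero_mul, zero_mul]
    · exact mul_le_mul_of_nonneg_left (h2 h0) h0.le
  linarith

end fin

end HMix

end Vale.Agent.P127.U
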