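import Vale.Agent.P127.U.H404.EventE
import Vale.Agent.P127.U.Lam.IncA

/-!
# P127 / U : INC, the field `event` (helper404)

* `event_le` : WIN on the event `G`, EXT off `G`, for `EFH` (`G` any Boolean variable).
* `event_inc` : the same in the form of `Incr.event`.
-/

set_option autoImplicit false

namespace Vale.Agent.P127.U.Inc

open Vale.Agent.P127 Vale.Agent.P127.Stk Vale.Agent.P127.U Pf

/-- constant of `event` -/
noncomputable def cEv (Λ N c c' : ℝ) : ℝ :=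
  c + max c' cS0 + (12 + 4 * Λ + 4 * N) * Real.log 13 + ((2 + Λ) * Real.log 2 + 1)

/-- **EVENT** for one window -/
theorem event_le {lam Λ κ c N b c' : ℝ} (hlam : 0 ≤ lam ∧ lam ≤ 1) (hΛ : 0 ≤ Λ) (hN : 0 ≤ N)
    (hV : PView lam Λ κ c) (hW : PWinH lam Λ N b c') {Ω : Type} [Fintype Ω] {Q : Law Ω}
    {l : Ω → Ln} {t v : Ω → ℝ} {n : ℕ} (hg : GoodF Q l t) (hv : ∀ ω, 0 < Q.w ω → |v ω| ≤ 1)
    (hr : Rnd Q l n) (G : Ω → Bool) (a w r ρ : ℕ) (har : a + w + (r + ρ) ≤ n) :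
    EFH Q lam Λ n (a + w) (r + ρ) l t v (fun _ => ()) ≤ EFH Q lam Λ n a r l t v (fun _ => ()) +
      Q.pr G true * (b * w * Real.log 2) + (1 - Q.pr G true) * (2 * w * Real.log 2) +
      N * (Q.pr G true * (w * Real.log 2 - Stk.hc (Q.cond G true) (fun ω => fl1 (a + w) (t ω))
        (fun ω => (tb n (l ω), st t v a r ω)))) + (κ * ρ * Real.log 2 + cEv Λ N c c') := by
  have hs : ∀ z, ∀ ω, 0 < (Q.cond G z).w ω → 0 < Q.w ω := fun z ω hω => JSB.cond_supp Q G z hω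
  have h13 : 0 ≤ Real.log 13 := Real.log_nonneg (by norm_num)
  have e0 : 0 ≤ 4 * N * Real.log 13 := by positivity
  set e : ℝ := κ * ρ * Real.log 2 + (c + max c' cS0 + (12 + 4 * Λ + 4 * N) * Real.log 13) with he
  have h := HMix.EFH_event (lam := lam) (Λ := Λ) hlam hΛ Q G n a (a + w) r (r + ρ) l t v
    (fun _ => ())
    (b1 := b * w * Real.log 2 + N * (w * Real.log 2 - Stk.hc (Q.cond G true)
      (fun ω => fl1 (a + w) (t ω)) (fun ω => (tb n (l ω), st t v a r ω))) + e)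
    (b2 := 2 * w * Real.log 2 + e)
    (fun _ => by
      have k := win_le hlam hΛ hN hV hW (Q := Q.cond G true) (l := l) (t := t) (v := v) (n := n)
        (fun ω hω => hg ω (hs true ω hω)) (fun ω hω => hv ω (hs true ω hω))
        (fun ω ω' hω hω' => hr ω ω' (hs true ω hω) (hs true ω' hω')) a w r ρ har
      have := le_max_left c' cS0
      linarith)
    (fun _ => by
      have k := ext_le hlam hΛ hV (Q := Q.cond G false) (l := l) (t := t) (v := v) (n := n)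
        (fun ω hω => hg ω (hs false ω hω)) (fun ω hω => hv ω (hs false ω hω))
        (fun ω ω' hω hω' => hr ω ω' (hs false ω hω) (hs false ω' hω')) a w r ρ har
      have := le_max_right c' cS0
      linarith)
  refine h.trans (le_of_eq ?_)
  rw [he]
  unfold cEv
  ring

/-- **EVENT** in the form of `Incr.event` -/
theorem event_inc {lam Λ κ c N b c' ε B β : ℝ} (hlam : 0 ≤ lam ∧ lam ≤ 1) (hΛ : 0 ≤ Λ)
    (hN : 0 ≤ N) (hκ : κ ≤ ε) (hκ0 : 0 ≤ κ) (hb : b ≤ β + ε) (hB : cEv Λ N c c' ≤ B)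
    (hε : 0 ≤ ε)
    (hV : PView lam Λ κ c) (hW : PWinH lam Λ N b c') {Ω : Type} [Fintype Ω] {Q : Law Ω}
    {l : Ω → Ln} {t v : Ω → ℝ} {n : ℕ} (hg : GoodF Q l t) (hv : ∀ ω, 0 < Q.w ω → |v ω| ≤ 1)
    (hr : Rnd Q l n) (a a' r r' : ℕ) (G : Ω → Bool) (haa : a ≤ a') (hrr : r ≤ r')
    (har : a' + r' ≤ n) :
    EFH Q lam Λ n a' r' l t v (fun _ => ()) ≤ EFH Q lam Λ n a r l t v (fun _ => ()) +
      Q.pr G true * (β * ((a' : ℝ) - a) * Real.log 2) +
      (1 - Q.pr G true) * (2 * ((a' : ℝ) - a) * Real.log 2) +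
      N * (Q.pr G true * (((a' : ℝ) - a) * Real.log 2 -
        Stk.hc (Q.cond G true) (fun ω => fl1 a' (t ω)) (fun ω => (tb n (l ω), st t v a r ω)))) +
      er ε B a a' r r' := by
  obtain ⟨w, rfl⟩ := Nat.exists_eq_add_of_le haa
  obtain ⟨ρ, rfl⟩ := Nat.exists_eq_add_of_le hrr
  have h := event_le hlam hΛ hN hV hW hg hv hr G a w r ρ har
  have e1 : ((a + w : ℕ) : ℝ) - a = w := by push_cast; ring
  have e2 : ((r + ρ : ℕ) : ℝ) - r = ρ := by push_cast; ring
  have hlog : 0 ≤ Real.log 2 := Real.log_nonneg (by norm_num)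
  have p1 : Q.pr G true ≤ 1 := Q.pr_le_one _ _
  have p0 : 0 ≤ Q.pr G true := Q.pr_nonneg _ _
  have hw : (0 : ℝ) ≤ w := Nat.cast_nonneg _
  have hρ : (0 : ℝ) ≤ ρ := Nat.cast_nonneg _
  unfold er
  rw [e1, e2]
  have f1 : b * w * Real.log 2 ≤ β * w * Real.log 2 + ε * w * Real.log 2 := by
    have : (b - β - ε) * (w * Real.log 2) ≤ 0 :=
      mul_nonpos_of_nonpos_of_nonneg (by linarith) (by positivity)
    nlinarith
  have f2 : Q.pr G true * (b * w * Real.log 2) ≤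
      Q.pr G true * (β * w * Real.log 2) + ε * w * Real.log 2 := by
    have g1 := mul_le_mul_of_nonneg_left f1 p0
    have g2 : Q.pr G true * (ε * w * Real.log 2) ≤ 1 * (ε * w * Real.log 2) :=
      mul_le_mul_of_nonneg_right p1 (by positivity)
    linarith
  have f3 : κ * ρ * Real.log 2 ≤ ε * ρ * Real.log 2 := by
    have : 0 ≤ (ρ : ℝ) * Real.log 2 := by positivity
    nlinarith
  have f4 : ε * ((w : ℝ) + ρ) * Real.log 2 = ε * w * Real.log 2 + ε * ρ * Real.log 2 := by ring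
  rw [f4]
  linarith

end Vale.Agent.P127.U.Inc
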