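import Vale.Agent.P127.U.Lam.RedC
import Vale.Agent.P127.U.H404.Act

/-!
# P127 / U : truncated submodularity (helper404)

Two boxes `A`, `A'` around the same line, of the same shape, `s = lv A A'` the level of their angle.  If
`s ≤ cap` we take meet and join, otherwise the two boxes themselves.  Error `103 + 3 log (cap + 1)`.

* `mtT`, `jnT` : truncated meet and join;
* `sub_finT`.
-/

set_option autoImplicit false

namespace Vale.Agent.P127.U.SubT

open Filter Topology Vale.Agent.P127 Vale.Agent.P127.Stk Vale.Agent.P127.U SubF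

section count

variable {Ω : Type} {γ : Type*}

/-- the level of the angle is at most the cap -/
noncomputable def gT (cap : ℕ) (A A' : Bx Ω) (ω : Ω) : Bool := decide (lv A A' ω ≤ cap)

/-- truncated meet -/
noncomputable def mtT (cap : ℕ) (A A' : Bx Ω) : Bx Ω :=
  ⟨A.l, A.θ, fun ω => if lv A A' ω ≤ cap then A.j ω - lv A A' ω else A.k ω, A.j⟩

/-- truncated join -/
noncomputable def jnT (cap : ℕ) (A A' : Bx Ω) : Bx Ω :=
  ⟨fun ω => if lv A A' ω ≤ cap then A.l ω else A'.l ω,
    fun ω => if lv A A' ω ≤ cap then A.θ ω else A'.θ ω,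
    fun ω => if lv A A' ω ≤ cap then A.k ω else A'.k ω,
    fun ω => if lv A A' ω ≤ cap then A.k ω + lv A A' ω else A'.j ω⟩

theorem mtT_pos {cap : ℕ} {A A' : Bx Ω} {ω : Ω} (h : lv A A' ω ≤ cap) :
    (mtT cap A A').lab ω = (SubF.mt A A').lab ω := by
  unfold Bx.lab mtT SubF.mt
  simp only [if_pos h]

theorem jnT_pos {cap : ℕ} {A A' : Bx Ω} {ω : Ω} (h : lv A A' ω ≤ cap) :
    (jnT cap A A').lab ω = (jn A A').lab ω := by
  unfold Bx.lab jnT jn
  simp only [if_pos h]

theorem mtT_neg {cap : ℕ} {A A' : Bx Ω} {ω : Ω} (h : ¬ lv A A' ω ≤ cap) :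
    (mtT cap A A').lab ω = A.lab ω := by
  unfold Bx.lab mtT
  simp only [if_neg h]

theorem jnT_neg {cap : ℕ} {A A' : Bx Ω} {ω : Ω} (h : ¬ lv A A' ω ≤ cap) :
    (jnT cap A A').lab ω = A'.lab ω := by
  unfold Bx.lab jnT
  simp only [if_neg h]

variable [Fintype Ω]

theorem hc_le_bool (P : Law Ω) {S T : Type*} (g : Ω → Bool) (X : Ω → S) (Z : Ω → T) :
    hc P X Z ≤ hc P X (fun ω => (Z ω, g ω)) + Real.log 2 := by
  have := Act.hc_split P g X Z
  rw [← Act.hc_bool] at this
  exact this

theorem hc_bool_le (P : Law Ω) {S T : Type*} (g : Ω → Bool) (X : Ω → S) (Z : Ω → T) :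
    hc P X (fun ω => (Z ω, g ω)) ≤ hc P X Z :=
  hc_mono_right P _ fun _ _ _ _ e => congrArg Prod.fst e

/-- mutual information and a Boolean variable -/
theorem mi_bool (P : Law Ω) {S T V : Type*} (g : Ω → Bool) (X : Ω → S) (Y : Ω → T) (Z : Ω → V) :
    P.pr g true * mi (P.cond g true) X Y Z + P.pr g false * mi (P.cond g false) X Y Z ≤
      mi P X Y Z + Real.log 2 := by
  have h1 := Act.hc_bool P g X Z
  have h2 := Act.hc_bool P g X (fun ω => (Y ω, Z ω))
  have h3 := hc_bool_le P g X Z
  have h4 := hc_le_bool P g X (fun ω => (Y ω, Z ω))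
  unfold mi
  linarith

/-- **truncated SUB** -/
theorem sub_finT (P : Law Ω) {ξ : Type*} (cap : ℕ) (A A' : Bx Ω) (X : Ω → ξ) (C : Ω → γ)
    (hok : ∀ ω, 0 < P.w ω → Nr ((1 / 2 : ℝ) ^ A.j ω) (A'.l ω) (A.l ω) ∧ A'.k ω = A.k ω ∧ A'.j ω = A.j ω ∧
      A.k ω ≤ A.j ω ∧ True ∧ |A.θ ω| ≤ 4 ∧ |A'.θ ω| ≤ 4) :
    hc P X (fun ω => (A.lab ω, C ω)) + hc P X (fun ω => (A'.lab ω, C ω)) ≤
      hc P X (fun ω => ((mtT cap A A').lab ω, C ω)) + hc P X (fun ω => ((jnT cap A A').lab ω, C ω)) +
      mi P A.lab A'.lab (fun ω => (X ω, C ω)) + 103 + 3 * Real.log (cap + 1) := by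
  classical
  set g : Ω → Bool := gT cap A A' with hg
  have a1 := hc_le_bool P g X (fun ω => (A.lab ω, C ω))
  have a2 := hc_le_bool P g X (fun ω => (A'.lab ω, C ω))
  have b1 := hc_bool_le P g X (fun ω => ((mtT cap A A').lab ω, C ω))
  have b2 := hc_bool_le P g X (fun ω => ((jnT cap A A').lab ω, C ω))
  rw [Act.hc_bool] at a1 a2 b1 b2
  have c1 := mi_bool P g A.lab A'.lab (fun ω => (X ω, C ω))
  have hlog : 0 ≤ Real.log ((cap : ℝ) + 1) := Real.log_nonneg (by
    have : (0 : ℝ) ≤ cap := Nat.cast_nonneg _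
    linarith)
  have hpb := Act.pr_bool P g
  -- on the event
  have d1 : P.pr g true * (hc (P.cond g true) X (fun ω => (A.lab ω, C ω)) +
      hc (P.cond g true) X (fun ω => (A'.lab ω, C ω))) ≤ P.pr g true *
      (hc (P.cond g true) X (fun ω => ((mtT cap A A').lab ω, C ω)) +
        hc (P.cond g true) X (fun ω => ((jnT cap A A').lab ω, C ω)) +
        mi (P.cond g true) A.lab A'.lab (fun ω => (X ω, C ω)) + 100 + 3 * Real.log (cap + 1)) := by
    rcases (P.pr_nonneg g true).eq_or_lt with h0 | h0
    · rw [← h0, zero_mul, zero_mul]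
    · refine mul_le_mul_of_nonneg_left ?_ h0.le
      set Q := P.cond g true with hQ
      have hs : ∀ ω, 0 < Q.w ω → 0 < P.w ω ∧ lv A A' ω ≤ cap := fun ω hω => by
        obtain ⟨p1, p2⟩ := Act.cond_pos h0 hω
        exact ⟨p1, by simpa [hg, gT] using p2⟩
      have hH : Q.H (lv A A') ≤ Real.log (cap + 1) := by
        have h1 := hc_le_log Q (lv A A') (fun _ => ()) (cap + 1) fun ω _ =>
          ⟨Finset.range (cap + 1), by rw [Finset.card_range], fun ω' hω' _ => by
            rw [Finset.mem_range]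
            have := (hs ω' hω').2
            omega⟩
        have h2 : hc Q (lv A A') (fun _ => ()) = Q.H (lv A A') := by
          unfold hc
          have h3 : Q.H (fun _ : Ω => ()) = 0 := by
            have h2 : Q.H (fun _ : Ω => ()) ≤ Real.log (Fintype.card Unit) := Q.H_le_log_card _
            simp only [Fintype.card_unit, Nat.cast_one, Real.log_one] at h2
            exact le_antisymm h2 (Q.H_nonneg _)
          rw [h3, sub_zero]
          exact Q.H_congr fun ω ω' => by simp
        rw [h2] at h1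
        push_cast at h1
        exact h1
      have h4 := Red.sub_finH Q (Real.log (cap + 1)) A A' X C (fun ω hω => hok ω (hs ω hω).1) hH
      have h5 : hc Q X (fun ω => ((SubF.mt A A').lab ω, C ω)) = hc Q X (fun ω => ((mtT cap A A').lab ω, C ω)) :=
        hc_congr Q (fun _ _ _ _ e => congrArg Prod.fst e) (fun _ _ _ _ e => congrArg Prod.fst e)
          (fun ω ω' p p' e => by
            simp only [Prod.mk.injEq] at e ⊢
            rw [mtT_pos (hs ω p).2, mtT_pos (hs ω' p').2] at e
            exact e)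
          (fun ω ω' p p' e => by
            simp only [Prod.mk.injEq] at e ⊢
            rw [mtT_pos (hs ω p).2, mtT_pos (hs ω' p').2]
            exact e)
      have h6 : hc Q X (fun ω => ((jn A A').lab ω, C ω)) = hc Q X (fun ω => ((jnT cap A A').lab ω, C ω)) :=
        hc_congr Q (fun _ _ _ _ e => congrArg Prod.fst e) (fun _ _ _ _ e => congrArg Prod.fst e)
          (fun ω ω' p p' e => by
            simp only [Prod.mk.injEq] at e ⊢
            rw [jnT_pos (hs ω p).2, jnT_pos (hs ω' p').2] at e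
            exact e)
          (fun ω ω' p p' e => by
            simp only [Prod.mk.injEq] at e ⊢
            rw [jnT_pos (hs ω p).2, jnT_pos (hs ω' p').2]
            exact e)
      rw [h5, h6] at h4
      exact h4
  -- off the event
  have d2 : P.pr g false * (hc (P.cond g false) X (fun ω => (A.lab ω, C ω)) +
      hc (P.cond g false) X (fun ω => (A'.lab ω, C ω))) ≤ P.pr g false *
      (hc (P.cond g false) X (fun ω => ((mtT cap A A').lab ω, C ω)) +
        hc (P.cond g false) X (fun ω => ((jnT cap A A').lab ω, C ω)) +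
        mi (P.cond g false) A.lab A'.lab (fun ω => (X ω, C ω))) := by
    rcases (P.pr_nonneg g false).eq_or_lt with h0 | h0
    · rw [← h0, zero_mul, zero_mul]
    · refine mul_le_mul_of_nonneg_left ?_ h0.le
      set Q := P.cond g false with hQ
      have hs : ∀ ω, 0 < Q.w ω → ¬ lv A A' ω ≤ cap := fun ω hω => by
        obtain ⟨p1, p2⟩ := Act.cond_pos h0 hω
        simpa [hg, gT] using p2
      have h5 : hc Q X (fun ω => (A.lab ω, C ω)) = hc Q X (fun ω => ((mtT cap A A').lab ω, C ω)) :=
        hc_congr Q (fun _ _ _ _ e => congrArg Prod.fst e) (fun _ _ _ _ e => congrArg Prod.fst e)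
          (fun ω ω' p p' e => by
            simp only [Prod.mk.injEq] at e ⊢
            rw [mtT_neg (hs ω p), mtT_neg (hs ω' p')] at e
            exact e)
          (fun ω ω' p p' e => by
            simp only [Prod.mk.injEq] at e ⊢
            rw [mtT_neg (hs ω p), mtT_neg (hs ω' p')]
            exact e)
      have h6 : hc Q X (fun ω => (A'.lab ω, C ω)) = hc Q X (fun ω => ((jnT cap A A').lab ω, C ω)) :=
        hc_congr Q (fun _ _ _ _ e => congrArg Prod.fst e) (fun _ _ _ _ e => congrArg Prod.fst e)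
          (fun ω ω' p p' e => by
            simp only [Prod.mk.injEq] at e ⊢
            rw [jnT_neg (hs ω p), jnT_neg (hs ω' p')] at e
            exact e)
          (fun ω ω' p p' e => by
            simp only [Prod.mk.injEq] at e ⊢
            rw [jnT_neg (hs ω p), jnT_neg (hs ω' p')]
            exact e)
      rw [h5, h6]
      have h7 := mi_nonneg Q A.lab A'.lab (fun ω => (X ω, C ω))
      linarith
  have h2 := Real.log_two_lt_d9
  have e1 : P.pr g true * (100 + 3 * Real.log (cap + 1)) ≤ 100 + 3 * Real.log (cap + 1) := by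
    have h3 : P.pr g true ≤ 1 := by
      have := P.pr_nonneg g false
      linarith
    have h4 : 0 ≤ 100 + 3 * Real.log ((cap : ℝ) + 1) := by linarith
    nlinarith
  nlinarith [d1, d2, a1, a2, b1, b2, c1, e1]

end count

end Vale.Agent.P127.U.SubT
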